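import Vale.Agent.P218WZ.All
import Vale.Agent.P218ST.Done
import Vale.Agent.P218VG.L0B
import Vale.Agent.P218VG.L1B
import Vale.Agent.P218VG.L2G
import Vale.Agent.P218VG.L3B
import Vale.Agent.P218VG.Pants
import Vale.Agent.P218VG.Static

/-! # Uniqueness of tangent flows of almost regular mean curvature flows of surfaces

Let `(μ_t)_{t ≥ 0}` be an integral Brakke flow of surfaces in `ℝ³` of finite mass which, on a time
interval `(a, t₀)`, is almost regular with bounded genus: it is unit-regular, and almost every time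
is a regular time, near which the flow is a smooth flow of closed embedded surfaces whose first Betti
number is bounded. Then the tangent flow at every point `(x₀, t₀)` is unique in fixed coordinates: as
`λ → ∞` the rescaled flows converge to the multiplicity one flow of a smooth properly embedded
self-shrinker of finite genus (empty if the flow does not reach the point) with cylindrical and
conical ends. -/

open MeasureTheory Set Filter Topology
open scoped Pointwise

namespace Vale.Agent.Results.P218.AlmostRegularFlows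

open Vale.Agent.P218 (IsIntegralBrakkeFlow TangentFlowUnique rescaled)
open Vale.Agent.P218ST (IsSmoothShrinker)
open Vale.Agent.P218GA (HasCylConeEnds)
open Vale.Agent.P218VG (FiniteGenus)
open Vale.Agent.P218WZ (IsAlmostRegularOn)

theorem result (μ : ℝ → Measure (EuclideanSpace ℝ (Fin 3))) (hμ : IsIntegralBrakkeFlow 2 μ)
    (h₀ : μ 0 univ < ⊤) (a t₀ : ℝ) (ha : 0 ≤ a) (ht : a < t₀)
    (hreg : IsAlmostRegularOn μ (Ioo a t₀)) (x₀ : EuclideanSpace ℝ (Fin 3)) :
    TangentFlowUnique 2 μ x₀ t₀ ∧
      ∃ S : Set (EuclideanSpace ℝ (Fin 3)),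
        (∃ Φ, IsSmoothShrinker S Φ) ∧ FiniteGenus S ∧ HasCylConeEnds S ∧
        ∀ s < 0, ∀ φ : EuclideanSpace ℝ (Fin 3) → ℝ, Continuous φ → HasCompactSupport φ →
          Tendsto (fun lam : ℝ => ∫ x, φ x ∂(rescaled 2 μ x₀ t₀ lam s)) atTop
            (𝓝 (∫ x in √(-s) • S, φ x ∂μH[2])) :=
  P218WZ.final P218WC.calcW P218WZ.unitA P218WZ.shapeA
    (P218VG.lgbG_of P218UZ.calcA P218VG.l0B (P218VG.l1B P218UZ.calcA P218UZ.graphA)
      (P218VG.l2G P218VG.pants) (P218VG.l3B P218UZ.calcA)) P218ST.mainSmooth hμ h₀ ha ht hreg x₀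

end Vale.Agent.Results.P218.AlmostRegularFlows
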