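import Vale.Agent.P218DY.Final

/-! # Uniqueness of tangent flows from a finite-dimensional Lojasiewicz inequality

`E` is a Euclidean space of dimension `m + 1` and `(μ_t)` is any `m`-dimensional integral Brakke
flow of finite mass in `E` (in particular any weak flow of problem P218, where `E = ℝ³` and
`m = 2`); `(x₀, t₀)` is any space-time point with `t₀ > 0`.

Suppose that some tangent flow at `(x₀, t₀)` has the time `-1` slice `H^m ⌞ S`, `S = {w₀ = 0}` a
hypersurface with a uniform tubular neighbourhood (any topology, any ends), and that `S` is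
approximated by finite-dimensional families `S^n_a = {w n a = 0}` of almost self-shrinkers
(`IsLojSeq`): their defect in the self-shrinker equation is `e (lam n a)` to leading order, with
`e` a fixed finite-dimensional space of functions, their velocities contain all square integrable
solutions of `L u = e l`, and their Gaussian areas satisfy the finite-dimensional Lojasiewicz
inequality `F (S^n_a) ≤ F (S) + C |lam n a|^γ + η n` for some `γ > 1`, `η n → 0`.

Then the tangent flow at `(x₀, t₀)` is unique in the fixed coordinates of `E`, and all its time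
`-1` slices are `H^m ⌞ S`. -/

open MeasureTheory Set Filter Topology
open scoped ENNReal

namespace Vale.Agent.Results.P218.LojasiewiczModel

open Vale.Agent.P218 Vale.Agent.P218DY

/-- Main theorem. -/
theorem result {E : Type*} [NormedAddCommGroup E] [InnerProductSpace ℝ E] [FiniteDimensional ℝ E]
    [MeasurableSpace E] [BorelSpace E] (m : ℕ) (hm : 0 < m) (hE : Module.finrank ℝ E = m + 1)
    (μ : ℝ → Measure E) (hμ : IsIntegralBrakkeFlow m μ) (hfin : μ 0 univ < ⊤)
    (x₀ : E) (t₀ : ℝ) (ht₀ : 0 < t₀)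
    {P : Type*} [NormedAddCommGroup P] [NormedSpace ℝ P] [FiniteDimensional ℝ P]
    {Λ : Type*} [NormedAddCommGroup Λ] [NormedSpace ℝ Λ] [FiniteDimensional ℝ Λ]
    (w₀ : E → ℝ) (w : ℕ → P → E → ℝ) (v : P →ₗ[ℝ] (E → ℝ)) (e : Λ →ₗ[ℝ] (E → ℝ))
    (lam : ℕ → P → Λ) (η : ℕ → ℝ) (δ C : ℝ) (q : ℕ) (hF : IsLojSeq m w₀ w v e lam η δ C q)
    (hmodel : ∃ ν : ℝ → Measure E, IsTangentFlow m μ x₀ t₀ ν ∧
      ν (-1) = (μH[m] : Measure E).restrict {x | w₀ x = 0}) :
    TangentFlowUnique m μ x₀ t₀ ∧
      ∀ ν : ℝ → Measure E, IsTangentFlow m μ x₀ t₀ ν →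
        ν (-1) = (μH[m] : Measure E).restrict {x | w₀ x = 0} := by
  obtain ⟨ν₀, hν₀, hνS⟩ := hmodel
  have hU := unique_of_lojSeq hm hE hF hμ hfin x₀ ht₀ ⟨ν₀, hν₀, hνS⟩
  exact ⟨hU, fun ν hν => (hU ν ν₀ hν hν₀ (-1) (by norm_num)).trans hνS⟩

end Vale.Agent.Results.P218.LojasiewiczModel
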