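import Vale.Agent.P218ST.Done
import Vale.Agent.P218VG.Final2
import Vale.Agent.P218VG.Betti
import Vale.Agent.P218VG.L0B
import Vale.Agent.P218VG.L1B
import Vale.Agent.P218VG.L2G
import Vale.Agent.P218VG.L3B
import Vale.Agent.P218VG.Pants
import Vale.Agent.P218VG.Shr
import Vale.Agent.P218RS.Norm
import Vale.Agent.P218RS.Genus
import Vale.Agent.P218FS.Defs

/-! # Uniqueness of tangent flows of surfaces at smooth models of finite genus

(A) Let `(M_t)`, `a ≤ t < a + T`, be a smooth mean curvature flow of closed embedded surfaces in `ℝ³`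
(part of an arbitrary family of measures). Then the tangent flow at every point `(x₀, a + t₀)`,
`0 < t₀ ≤ T`, is unique in fixed coordinates: as `λ → ∞` the rescaled flows converge, weakly and
smoothly with multiplicity one, to the flow of a smooth properly embedded self-shrinker of finite
genus (empty if the flow does not reach the point) with cylindrical and conical ends.

(B) For any integral Brakke flow of finite mass and any point, the tangent flow is unique as soon as
one tangent flow is the multiplicity one flow of a smooth properly embedded self-shrinker of finite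
genus. -/

open MeasureTheory Set Filter Topology
open scoped Manifold ContDiff Pointwise

namespace Vale.Agent.Results.P218.SmoothTangentFlows

open Vale.Agent.P218 (IsIntegralBrakkeFlow IsTangentFlow TangentFlowUnique rescaled)
open Vale.Agent.P218ST (IsSmoothShrinker)
open Vale.Agent.P218GA (HasCylConeEnds)
open Vale.Agent.P218FS (IsSmoothMCF)
open Vale.Agent.P218UA (SmoothConv)
open Vale.Agent.P218VG (FiniteGenus)

theorem result :
    (∀ (M : Type) [TopologicalSpace M] [ChartedSpace (EuclideanSpace ℝ (Fin 2)) M]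
      [IsManifold (𝓡 2) ∞ M] [T2Space M] [CompactSpace M]
      (F : ℝ → M → EuclideanSpace ℝ (Fin 3)) (a T : ℝ),
      IsSmoothMCF (fun i => (EuclideanSpace.single i 1 : EuclideanSpace ℝ (Fin 2))) F T →
      Function.Injective (F 0) →
      ∀ μ : ℝ → Measure (EuclideanSpace ℝ (Fin 3)),
        (∀ t ∈ Ico 0 T,
          μ (a + t) = (μHE[2] : Measure (EuclideanSpace ℝ (Fin 3))).restrict (range (F t))) →
      ∀ (x₀ : EuclideanSpace ℝ (Fin 3)) (t₀ : ℝ), 0 < t₀ → t₀ ≤ T →
        TangentFlowUnique 2 μ x₀ (a + t₀) ∧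
        ∃ S : Set (EuclideanSpace ℝ (Fin 3)),
          ((∃ Φ, IsSmoothShrinker S Φ) ∧ FiniteGenus S ∧ HasCylConeEnds S ∧
            ∀ s < 0, ∀ lam : ℕ → ℝ, Tendsto lam atTop atTop →
              SmoothConv (fun i => (fun x => lam i • (x - x₀)) '' range (F (t₀ + s / lam i ^ 2)))
                (√(-s) • S)) ∧
          ∀ s < 0, ∀ φ : EuclideanSpace ℝ (Fin 3) → ℝ, Continuous φ → HasCompactSupport φ →
            Tendsto (fun lam : ℝ => ∫ x, φ x ∂(rescaled 2 μ x₀ (a + t₀) lam s)) atTop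
              (𝓝 (∫ x in √(-s) • S, φ x ∂μHE[2]))) ∧
    ∀ μ : ℝ → Measure (EuclideanSpace ℝ (Fin 3)), IsIntegralBrakkeFlow 2 μ → μ 0 univ < ⊤ →
      ∀ (x₀ : EuclideanSpace ℝ (Fin 3)) (t₀ : ℝ), 0 < t₀ →
      ∀ S : Set (EuclideanSpace ℝ (Fin 3)), (∃ Φ, IsSmoothShrinker S Φ) → FiniteGenus S →
        (∃ ν, IsTangentFlow 2 μ x₀ t₀ ν ∧
          ν (-1) = (μH[2] : Measure (EuclideanSpace ℝ (Fin 3))).restrict S) →
        TangentFlowUnique 2 μ x₀ t₀ ∧ ∀ ν, IsTangentFlow 2 μ x₀ t₀ ν →
          ν (-1) = (μH[2] : Measure (EuclideanSpace ℝ (Fin 3))).restrict S := by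
  have hL := P218VG.lgbG_of P218UZ.calcA P218VG.l0B (P218VG.l1B P218UZ.calcA P218UZ.graphA)
    (P218VG.l2G P218VG.pants) (P218VG.l3B P218UZ.calcA)
  refine ⟨fun M _ _ _ _ _ F a T hF h0 μ hμ x₀ t₀ h1 h2 => P218RS.normalise
    (I := {t | t - a ∈ Ico 0 T}) (A := fun t => range (F (t - a)))
    (fun t ht => by rw [← hμ _ ht, add_sub_cancel]) fun μ hμ => ?_,
    fun μ h1 h2 x₀ t₀ h3 S ⟨Φ, h4⟩ h5 h6 => ?_⟩
  · obtain ⟨b, S, Φ, c, d, e⟩ := P218VG.final2 hL (P218VG.betti M) P218ST.mainSmooth F a T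
      ⟨hF.smooth, hF.immersion, hF.flow⟩ h0 μ
      (fun t ht => by simpa using hμ (a + t) (by simpa using ht)) x₀ t₀ ⟨h1, h2⟩
    exact ⟨b, S, ⟨⟨Φ, c⟩, P218RS.genus_of_ends c d, d, fun s hs => (e s hs).2⟩,
      fun s hs => (e s hs).1⟩
  · have e : (μH[2] : Measure (EuclideanSpace ℝ (Fin 3))) = μH[(2 : ℕ)] := by norm_num
    rw [e] at h6 ⊢
    exact P218VG.unique_of_genus hL (fun N _ _ _ _ => P218VG.betti N) P218ST.mainSmooth h4 h5
      μ h1 h2 x₀ t₀ h3 h6

end Vale.Agent.Results.P218.SmoothTangentFlows
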